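import Mathlib
import Vale.Agent.Lib.P333.Defs
import Vale.Agent.Lib.P333.Four

namespace Vale.Agent.Results.P333.GreedyFour

open Vale.Agent.Lib.P333

/-- Greedy conjecture (Tarhio-Ukkonen) for instances with at most four maximal strings:
every output `t` of the greedy algorithm on `F` (any tie-breaking) is a common superstring
of `F` whose length is at most twice the length of any common superstring `T` of `F`. -/
theorem result {α : Type*} [DecidableEq α] (F : Finset (List α))
    (hF : (discardFactors F).card ≤ 4) (t T : List α)
    (ht : GreedyOutput F t) (hT : ∀ s ∈ F, s <:+: T) :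
    (∀ s ∈ F, s <:+: t) ∧ t.length ≤ 2 * T.length :=
  greedy_four F hF t T ht hT

end Vale.Agent.Results.P333.GreedyFour
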